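import Mathlib

/-! Basic algebraic definitions for P173. -/

universe u v

open Quaternion

namespace Vale.Agent.P173

/-- Unrestricted wreath product: a function on `Γ` together with an element of `Γ`. -/
@[ext] structure Wr (Γ : Type*) (P : Type*) where
  fn : Γ → P
  el : Γ

namespace Wr

variable {Γ P : Type*} [Group Γ] [Group P]

instance : Mul (Wr Γ P) := ⟨fun a b => ⟨fun c => a.fn c * b.fn (c * a.el), a.el * b.el⟩⟩
instance : One (Wr Γ P) := ⟨⟨fun _ => 1, 1⟩⟩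
instance : Inv (Wr Γ P) := ⟨fun a => ⟨fun c => (a.fn (c * a.el⁻¹))⁻¹, a.el⁻¹⟩⟩

@[simp] theorem mul_fn (a b : Wr Γ P) (c : Γ) : (a * b).fn c = a.fn c * b.fn (c * a.el) := rfl
@[simp] theorem mul_el (a b : Wr Γ P) : (a * b).el = a.el * b.el := rfl
@[simp] theorem one_fn (c : Γ) : (1 : Wr Γ P).fn c = 1 := rfl
@[simp] theorem one_el : (1 : Wr Γ P).el = 1 := rfl
@[simp] theorem inv_fn (a : Wr Γ P) (c : Γ) : (a⁻¹).fn c = (a.fn (c * a.el⁻¹))⁻¹ := rfl
@[simp] theorem inv_el (a : Wr Γ P) : (a⁻¹).el = a.el⁻¹ := rfl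

instance : Group (Wr Γ P) := Group.ofLeftAxioms
  (fun a b c => by ext <;> simp [mul_assoc])
  (fun a => by ext <;> simp)
  (fun a => by ext <;> simp)

/-- The projection to `Γ`. -/
def elHom : Wr Γ P →* Γ where
  toFun a := a.el
  map_one' := rfl
  map_mul' _ _ := rfl

end Wr

section Ev

variable {Γ Ed P P' : Type*} [Group Γ] [Group P] [Group P']

/-- The product of the labels along the lift starting at `g` of the word `w`. -/
def ev (μ : Ed → Γ) (lab : Γ → Ed → P) (g : Γ) (w : FreeGroup Ed) : P :=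
  (FreeGroup.lift (fun e => (⟨fun c => lab c e, μ e⟩ : Wr Γ P)) w).fn g

theorem ev_el (μ : Ed → Γ) (lab : Γ → Ed → P) (w : FreeGroup Ed) :
    (FreeGroup.lift (fun e => (⟨fun c => lab c e, μ e⟩ : Wr Γ P)) w).el = FreeGroup.lift μ w := by
  have : (Wr.elHom (Γ := Γ) (P := P)).comp
      (FreeGroup.lift (fun e => (⟨fun c => lab c e, μ e⟩ : Wr Γ P))) = FreeGroup.lift μ := by
    ext e; simp [Wr.elHom]
  exact DFunLike.congr_fun this w

@[simp] theorem ev_one (μ : Ed → Γ) (lab : Γ → Ed → P) (g : Γ) : ev μ lab g 1 = 1 := by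
  simp [ev]

@[simp] theorem ev_of (μ : Ed → Γ) (lab : Γ → Ed → P) (g : Γ) (e : Ed) :
    ev μ lab g (FreeGroup.of e) = lab g e := by
  simp [ev]

theorem ev_mul (μ : Ed → Γ) (lab : Γ → Ed → P) (g : Γ) (w w' : FreeGroup Ed) :
    ev μ lab g (w * w') = ev μ lab g w * ev μ lab (g * FreeGroup.lift μ w) w' := by
  simp [ev, ev_el]

theorem ev_inv (μ : Ed → Γ) (lab : Γ → Ed → P) (g : Γ) (w : FreeGroup Ed) :
    ev μ lab g w⁻¹ = (ev μ lab (g * (FreeGroup.lift μ w)⁻¹) w)⁻¹ := by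
  simp [ev, ev_el]

theorem ev_map (μ : Ed → Γ) (lab : Γ → Ed → P) (φ : P →* P') (g : Γ) (w : FreeGroup Ed) :
    φ (ev μ lab g w) = ev μ (fun c e => φ (lab c e)) g w := by
  induction w using FreeGroup.induction_on generalizing g with
  | C1 => simp
  | of e => simp
  | inv_of e h => rw [ev_inv, ev_inv, map_inv, h]
  | mul x y hx hy => rw [ev_mul, ev_mul, map_mul, hx, hy]

/-- The subgroup of the free group generated by the letters in `M`. -/
def FM (M : Set Ed) : Subgroup (FreeGroup Ed) := Subgroup.closure (FreeGroup.of '' M)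

theorem ev_congr (μ : Ed → Γ) (lab lab' : Γ → Ed → P) (M : Set Ed)
    (h : ∀ g, ∀ e ∈ M, lab g e = lab' g e) {w : FreeGroup Ed} (hw : w ∈ FM M) (g : Γ) :
    ev μ lab g w = ev μ lab' g w := by
  induction hw using Subgroup.closure_induction generalizing g with
  | mem x hx => obtain ⟨e, he, rfl⟩ := hx; simp [h g e he]
  | one => simp
  | mul x y _ _ hx hy => rw [ev_mul, ev_mul, hx, hy]
  | inv x _ hx => rw [ev_inv, ev_inv, hx]

/-- If the labels on `M` come from a potential, so does `ev` on words in `M`. -/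
theorem ev_pot (μ : Ed → Γ) (lab : Γ → Ed → P) (M : Set Ed) (U : Γ → P)
    (h : ∀ g, ∀ e ∈ M, lab g e = (U g)⁻¹ * U (g * μ e)) {w : FreeGroup Ed} (hw : w ∈ FM M)
    (g : Γ) : ev μ lab g w = (U g)⁻¹ * U (g * FreeGroup.lift μ w) := by
  induction hw using Subgroup.closure_induction generalizing g with
  | mem x hx => obtain ⟨e, he, rfl⟩ := hx; simp [h g e he]
  | one => simp
  | mul x y _ _ hx hy => rw [ev_mul, hx, hy]; simp [mul_assoc]
  | inv x _ hx => rw [ev_inv, hx]; simp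

theorem mem_FM_univ (w : FreeGroup Ed) : w ∈ FM (Set.univ : Set Ed) := by
  rw [FM, Set.image_univ, FreeGroup.closure_range_of]; trivial

end Ev

/-- A presentation of `Γ` whose relators have independent boundaries mod 2 in the universal
cover of the presentation complex. -/
structure Pres (Γ : Type v) [Group Γ] : Type (max (u + 1) v) where
  Ed : Type u
  Fa : Type u
  μ : Ed → Γ
  rel : Fa → FreeGroup Ed
  surj : Function.Surjective (FreeGroup.lift μ)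
  ker : ∀ w, FreeGroup.lift μ w = 1 ↔ w ∈ Subgroup.normalClosure (Set.range rel)
  dual : ∀ (g₀ : Γ) (f₀ : Fa), ∃ c : Γ → Ed → Multiplicative (ZMod 2),
    ∀ g f, ev μ c g (rel f) = 1 ↔ ¬ (g = g₀ ∧ f = f₀)

/-- Words that are edge paths in a graph. -/
inductive IsPath {V Ed : Type*} (src tgt : Ed → V) : V → FreeGroup Ed → V → Prop
  | refl (a : V) : IsPath src tgt a 1 a
  | fwd {a : V} {w : FreeGroup Ed} (e : Ed) :
      IsPath src tgt a w (src e) → IsPath src tgt a (w * FreeGroup.of e) (tgt e)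
  | bwd {a : V} {w : FreeGroup Ed} (e : Ed) :
      IsPath src tgt a w (tgt e) → IsPath src tgt a (w * (FreeGroup.of e)⁻¹) (src e)

/-- Combinatorial 2-complex with a `Γ`-cover that is connected, simply connected and has
no 2-cycles mod 2. -/
structure Cov (Γ : Type v) [Group Γ] : Type (max (u + 1) v) where
  V : Type u
  Ed : Type u
  Fa : Type u
  src : Ed → V
  tgt : Ed → V
  μ : Ed → Γ
  rel : Fa → FreeGroup Ed
  b : Fa → V
  v0 : V
  path_rel : ∀ f, IsPath src tgt (b f) (rel f) (b f)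
  mu_rel : ∀ f, FreeGroup.lift μ (rel f) = 1
  conn : ∀ (g : Γ) (a : V), ∃ w, IsPath src tgt v0 w a ∧ FreeGroup.lift μ w = g
  flat : ∀ (P : Type u) [Group P] (lab : Γ → Ed → P), (∀ g f, ev μ lab g (rel f) = 1) →
    ∃ U : Γ → V → P, ∀ g e, lab g e = (U g (src e))⁻¹ * U (g * μ e) (tgt e)
  dual : ∀ (S : Finset (Γ × Fa)), ∀ y₀ ∈ S, ∃ c : Γ → Ed → Multiplicative (ZMod 2),
    ∀ y ∈ S, ev μ c y.1 (rel y.2) = 1 ↔ y ≠ y₀

/-- The group of nonzero quaternions modulo its center. -/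
abbrev PH : Type := ℍ[ℝ]ˣ ⧸ Subgroup.center ℍ[ℝ]ˣ

section Graph

variable {V : Type} [DecidableEq V] (G : SimpleGraph V)

/-- A clique of the graph (possibly empty). -/
def Clq (τ : Finset V) : Prop := G.IsClique (τ : Set V)

/-- A strict pair of nonempty cliques. -/
def Pr (τ₀ τ₁ : Finset V) : Prop := τ₀.Nonempty ∧ τ₀ ⊂ τ₁ ∧ Clq G τ₁

/-- A strict triple of cliques (the first one may be empty). -/
def Tri (τ₀ τ₁ τ₂ : Finset V) : Prop := τ₀ ⊂ τ₁ ∧ τ₁ ⊂ τ₂ ∧ Clq G τ₂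

omit [DecidableEq V] in
theorem Clq.mono {G : SimpleGraph V} {τ τ' : Finset V} (h : Clq G τ') (hs : τ ⊆ τ') : Clq G τ :=
  SimpleGraph.IsClique.subset (Finset.coe_subset.2 hs) h

/-- The finite facts needed about the poset of nonempty cliques of the graph. -/
structure Good : Prop where
  conn : ∀ {α : Type} (β : Finset V → α), (∀ τ τ', Pr G τ τ' → β τ = β τ') →
    ∀ τ τ', τ.Nonempty → Clq G τ → τ'.Nonempty → Clq G τ' → β τ = β τ'
  h1 : ∀ (A : Type) [AddCommGroup A] (φ : Finset V → Finset V → A),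
    (∀ τ₀ τ₁ τ₂, τ₀.Nonempty → Tri G τ₀ τ₁ τ₂ → φ τ₀ τ₁ + φ τ₁ τ₂ = φ τ₀ τ₂) →
    ∃ β : Finset V → A, ∀ τ τ', Pr G τ τ' → φ τ τ' = β τ' - β τ
  h2 : ∀ σ₀ σ₁ σ₂, σ₀.Nonempty → Tri G σ₀ σ₁ σ₂ → ∃ ψ : Finset V → Finset V → ℤ,
    ∀ τ₀ τ₁ τ₂, τ₀.Nonempty → Tri G τ₀ τ₁ τ₂ →
      ψ τ₀ τ₁ + ψ τ₁ τ₂ - ψ τ₀ τ₂ = if τ₀ = σ₀ ∧ τ₁ = σ₁ ∧ τ₂ = σ₂ then 1 else 0
  rep : ∃ q : Finset V → Finset V → PH,
    (∀ τ₀ τ₁ τ₂, τ₀.Nonempty → Tri G τ₀ τ₁ τ₂ → q τ₀ τ₁ * q τ₁ τ₂ = q τ₀ τ₂) ∧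
    ¬ ∃ U : Finset V → PH, ∀ τ τ', Pr G τ τ' → q τ τ' = (U τ)⁻¹ * U τ'
  sq : ∃ u₁ u₂ v₁ v₂ : V, u₁ ≠ u₂ ∧ ¬ G.Adj u₁ u₂ ∧ v₁ ≠ v₂ ∧ ¬ G.Adj v₁ v₂ ∧
    G.Adj u₁ v₁ ∧ G.Adj u₁ v₂ ∧ G.Adj u₂ v₁ ∧ G.Adj u₂ v₂

end Graph

end Vale.Agent.P173
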